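import Vale.Agent.Lib.P060.Half
import Vale.Agent.Lib.P060.MatchingNumber

/-!
# P060: Hadwiger's conjecture for very dense graphs

`G` is a finite graph on `n` vertices in which every vertex has at most `D` non-neighbours.

1. If there are `k ≥ 4 D (D+1)` pairwise disjoint pairs of non-adjacent vertices (the complement has
   a matching with `k` edges), then for some `t` the graph `G` is `t`-colourable and has a `K_t`
   minor, so `χ(G) ≤ h(G)`.
2. The same holds if at least `4 D (D+1)^2` vertices have a non-neighbour.
3. If `n ≥ 4 D (D+1)`, then `G` has a `K_⌈n/2⌉` minor.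

Proof.  Take a maximal matching `M` of the complement `H`.  Colouring the two ends of every edge of
`M` alike and all other vertices differently is a proper colouring of `G` with `n - |M|` colours, and
the vertices missed by `M` form a clique of `G`.  Each vertex is `H`-adjacent to, or shares an
`H`-neighbour with, at most `D + D^2` vertices; as `|M| ≥ 2 (D + D^2)`, Hall's theorem pairs the
vertices covered by `M` again into `|M|` pairs `{x, y}` such that `x y` is an edge of `G` and no
vertex is a non-neighbour of both `x` and `y`.  These pairs and the uncovered vertices are the branch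
sets of a `K_{n - |M|}` minor.  For 3, pair two arbitrary disjoint halves of the vertex set.
-/

namespace Vale.Agent.Results.P060.AAllResults

open Vale.Agent.Lib.P060

theorem result :
    ∀ (V : Type) [Fintype V] [DecidableEq V] (G : SimpleGraph V) [DecidableRel G.Adj] (D : ℕ),
      (∀ v, (Finset.univ.filter (fun w => w ≠ v ∧ ¬ G.Adj v w)).card ≤ D) →
      ((∀ (k : ℕ) (a b : Fin k → V), (∀ i, a i ≠ b i ∧ ¬ G.Adj (a i) (b i)) →
          (∀ i j, i ≠ j → a i ≠ a j ∧ a i ≠ b j ∧ b i ≠ b j) → 4 * D * (D + 1) ≤ k →
          ∃ t : ℕ, G.Colorable t ∧ HasCompleteMinor G t) ∧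
        (4 * D * (D + 1) ^ 2 ≤ (Finset.univ.filter (fun v => ∃ w, w ≠ v ∧ ¬ G.Adj v w)).card →
          ∃ t : ℕ, G.Colorable t ∧ HasCompleteMinor G t) ∧
        (4 * D * (D + 1) ≤ Fintype.card V →
          HasCompleteMinor G ((Fintype.card V + 1) / 2))) := by
  intro V _ _ G _ D hD
  refine ⟨?_, ?_, ?_⟩
  · intro k a b hab hdisj hk
    obtain ⟨t, -, hc, hm⟩ := hadwiger_matching G D k hD a b hab hdisj hk
    exact ⟨t, hc, hm⟩
  · intro hN
    obtain ⟨t, -, hc, hm⟩ := hadwiger_dense G D hD hN
    exact ⟨t, hc, hm⟩
  · intro hN
    exact half_minor G D hD hN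

end Vale.Agent.Results.P060.AAllResults
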