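import Vale.Agent.Lib.P060.Main

/-!
# P060: Hadwiger's conjecture for very dense graphs

Let `G` be a finite graph in which every vertex has at most `D` non-neighbours and at least
`4 D (D+1)^2` vertices have a non-neighbour.  Then there is a `t` with `n ≤ 2 t` such that `G` is
`t`-colourable and has a `K_t` minor; so `χ(G) ≤ t ≤ h(G)`, and `G` has a `K_⌈n/2⌉` minor.

Proof.  Take a maximal matching `M` of the complement `H` of `G`.  Colouring the two ends of every
edge of `M` alike and all other vertices differently is a proper colouring of `G` with `n - |M|`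
colours.  The vertices missed by `M` form a clique of `G`.  Every vertex that is not isolated in `H`
is covered by `M` or is an `H`-neighbour of a covered vertex, so `|M| ≥ 2 (D + D^2)`.  Each vertex is
`H`-adjacent to, or shares an `H`-neighbour with, at most `D + D^2` vertices, so by Hall's theorem
the vertices covered by `M` can be paired again into `|M|` pairs `{x, y}` such that `x y` is an edge
of `G` and no vertex is a non-neighbour of both `x` and `y`.  These pairs and the uncovered vertices
are the branch sets of a `K_{n - |M|}` minor.
-/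

namespace Vale.Agent.Results.P060.DenseGraphs

open Vale.Agent.Lib.P060

theorem result :
    ∀ (V : Type) [Fintype V] [DecidableEq V] (G : SimpleGraph V) [DecidableRel G.Adj] (D : ℕ),
      (∀ v, (Finset.univ.filter (fun w => w ≠ v ∧ ¬ G.Adj v w)).card ≤ D) →
      4 * D * (D + 1) ^ 2 ≤ (Finset.univ.filter (fun v => ∃ w, w ≠ v ∧ ¬ G.Adj v w)).card →
      (∃ t : ℕ, G.Colorable t ∧ HasCompleteMinor G t) ∧
        HasCompleteMinor G ((Fintype.card V + 1) / 2) := by
  intro V _ _ G _ D hD hN
  obtain ⟨t, ht, hc, B, hB1, hB2, hB3⟩ := hadwiger_dense G D hD hN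
  refine ⟨⟨t, hc, B, hB1, hB2, hB3⟩, ?_⟩
  have hle : (Fintype.card V + 1) / 2 ≤ t := by omega
  refine ⟨fun i => B (Fin.castLE hle i), fun i => hB1 _, fun i j hij => hB2 _ _ ?_,
    fun i j hij => hB3 _ _ ?_⟩
  · intro h
    exact hij (Fin.castLE_injective hle h)
  · intro h
    exact hij (Fin.castLE_injective hle h)

end Vale.Agent.Results.P060.DenseGraphs
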